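import Vale.Agent.P181.H261.MatG
import Vale.Agent.P181.TS.Spec

/-!
# P181, TS [MAT]: the orbit inequality for the design with codes
-/

set_option autoImplicit false

namespace Vale.Agent.P181.TS.H91

open Finset Polynomial
open Vale.Agent.P181 Vale.Agent.P181.H280 Vale.Agent.P181.FR Vale.Agent.P181.H188W
open Vale.Agent.P181.T4 Vale.Agent.P181.H463 Vale.Agent.P181.H59 Vale.Agent.P181.H261

/-- A matrix over `ℂ[t]` whose rows have their lowest terms on the diagonal. -/
theorem det_ne {κ : Type*} [Fintype κ] [DecidableEq κ] (P : κ → κ → ℂ[X]) (ω : κ → ℕ)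
    (h1 : ∀ τ, (X : ℂ[X]) ^ ω τ ∣ P τ τ) (h2 : ∀ τ, (P τ τ).coeff (ω τ) ≠ 0)
    (h3 : ∀ τ σ, σ ≠ τ → (X : ℂ[X]) ^ (ω τ + 1) ∣ P τ σ) : (Matrix.of P).det ≠ 0 := by
  have hex : ∀ τ σ, ∃ Q : ℂ[X], P τ σ = X ^ ω τ * Q ∧ (σ ≠ τ → Q.eval 0 = 0) ∧
      (σ = τ → Q.eval 0 ≠ 0) := by
    intro τ σ
    by_cases h : σ = τ
    · subst h
      obtain ⟨Q, hQ⟩ := h1 σ
      refine ⟨Q, hQ, fun h => absurd rfl h, fun _ => ?_⟩
      have := h2 σ
      rw [hQ] at this
      have h4 : (X ^ ω σ * Q).coeff (0 + ω σ) = Q.coeff 0 := coeff_X_pow_mul Q (ω σ) 0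
      rw [zero_add] at h4
      rw [h4, coeff_zero_eq_eval_zero] at this
      exact this
    · obtain ⟨Q, hQ⟩ := h3 τ σ h
      refine ⟨X * Q, by rw [hQ, pow_succ, mul_assoc], fun _ => by simp, fun h' => absurd h' h⟩
  choose Q hQ hQ0 hQ1 using hex
  have e : (Matrix.of P) = Matrix.of fun τ σ => (fun τ => (X : ℂ[X]) ^ ω τ) τ * (Matrix.of Q) τ σ := by
    ext1 τ σ
    exact hQ τ σ
  rw [e, Matrix.det_mul_column]
  refine mul_ne_zero (prod_ne_zero_iff.2 fun τ _ => pow_ne_zero _ X_ne_zero) ?_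
  intro h0
  have h4 : ((evalRingHom (0 : ℂ)).mapMatrix (Matrix.of Q)).det = 0 := by
    rw [← RingHom.map_det, h0, map_zero]
  have h5 : (evalRingHom (0 : ℂ)).mapMatrix (Matrix.of Q) =
      Matrix.diagonal fun τ => (Q τ τ).eval 0 := by
    ext τ σ
    rw [RingHom.mapMatrix_apply, Matrix.map_apply, Matrix.of_apply, coe_evalRingHom]
    by_cases h : σ = τ
    · subst h
      rw [Matrix.diagonal_apply_eq]
    · rw [Matrix.diagonal_apply_ne _ (fun h' => h h'.symm)]
      exact hQ0 τ σ h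
  rw [h5, Matrix.det_diagonal] at h4
  exact (prod_ne_zero_iff.2 fun τ _ => hQ1 τ τ rfl) h4

/-- products of polynomials with given lowest terms -/
theorem prod_low {ι : Type*} (s : Finset ι) (f : ι → ℂ[X]) (a : ι → ℕ)
    (h1 : ∀ c ∈ s, (X : ℂ[X]) ^ a c ∣ f c) (h2 : ∀ c ∈ s, (f c).coeff (a c) ≠ 0) :
    (∏ c ∈ s, f c).coeff (∑ c ∈ s, a c) ≠ 0 := by
  classical
  have hex : ∀ c, ∃ Q : ℂ[X], c ∈ s → f c = X ^ a c * Q := by
    intro c
    by_cases h : c ∈ s
    · obtain ⟨Q, hQ⟩ := h1 c h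
      exact ⟨Q, fun _ => hQ⟩
    · exact ⟨0, fun h' => absurd h' h⟩
  choose Q hQ using hex
  have e : ∏ c ∈ s, f c = X ^ (∑ c ∈ s, a c) * ∏ c ∈ s, Q c := by
    rw [prod_congr rfl fun c hc => hQ c hc, prod_mul_distrib, prod_pow_eq_pow_sum]
  have h4 : (X ^ (∑ c ∈ s, a c) * ∏ c ∈ s, Q c).coeff (0 + ∑ c ∈ s, a c) =
      (∏ c ∈ s, Q c).coeff 0 := coeff_X_pow_mul _ _ 0
  rw [zero_add] at h4
  rw [e, h4, coeff_zero_eq_eval_zero, eval_prod]
  refine prod_ne_zero_iff.2 fun c hc => ?_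
  have := h2 c hc
  rw [hQ c hc] at this
  have h5 : (X ^ a c * Q c).coeff (0 + a c) = (Q c).coeff 0 := coeff_X_pow_mul _ _ 0
  rw [zero_add] at h5
  rwa [h5, coeff_zero_eq_eval_zero] at this

theorem prod_dvd {ι : Type*} (s : Finset ι) (f : ι → ℂ[X]) (a : ι → ℕ)
    (h1 : ∀ c ∈ s, (X : ℂ[X]) ^ a c ∣ f c) : (X : ℂ[X]) ^ (∑ c ∈ s, a c) ∣ ∏ c ∈ s, f c := by
  rw [← prod_pow_eq_pow_sum]
  exact prod_dvd_prod_of_dvd _ _ h1

/-- the minors at a numerical point. -/
theorem dt_pt {b n R : ℕ} (r : ℕ) (cl : Fin b → Fin R) (y : Fin b → Fin R → Bool)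
    (G : Fin b → ℕ → ℂ) {l : ℕ} (hl : l ≤ n) (e : Fin l → Fin b) (t : ℂ) :
    dt hl e (fun u i => (pt r cl y G n u i).eval t) = (mn r cl y G l e).eval t := by
  rw [dt, mn, ← coe_evalRingHom, RingHom.map_det]
  congr 1

theorem exists_eval {p : ℂ[X]} (hp : p ≠ 0) : ∃ t : ℂ, p.eval t ≠ 0 := by
  by_contra h
  push Not at h
  exact hp (Polynomial.funext fun x => by rw [h x, eval_zero])

/-- the matrix of the products of minors over `ℂ[t]` is nonsingular. -/
theorem key (hO1 : Ord1) (hO2 : Ord2) {b r g N : ℕ} {len : Fin N → ℕ}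
    (cl : Fin b → Fin (g * r)) (y : Fin b → Fin (g * r) → Bool) (G : Fin b → ℕ → ℂ) (hr : 0 < r)
    (hR : ∀ c, g * r ≤ len c) (A : Equiv.Perm (Fin b) → Fin N → Finset (Fin b))
    (u : Equiv.Perm (Fin b) → (c : Fin N) → Fin (len c) → Fin b)
    (hu : ∀ τ c, Function.Injective (u τ c)) (huI : ∀ τ c, univ.image (u τ c) = A τ c)
    (hG : ∀ τ c, (mn r cl y G (len c) (u τ c)).coeff (miss cl (A τ c)).card ≠ 0)
    (hA4 : ∀ τ, ∀ ρ : Equiv.Perm (Fin b), ρ ≠ 1 →
        (∑ c, (miss cl (A τ c)).card < ∑ c, (miss cl ((A τ c).image ρ)).card) ∨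
        ((∑ c, (miss cl (A τ c)).card ≤ ∑ c, (miss cl ((A τ c).image ρ)).card) ∧
          ∃ c, Sing r cl y ((A τ c).image ρ))) :
    (Matrix.of fun τ σ : Equiv.Perm (Fin b) =>
      ∏ c, mn r cl y G (len c) (fun s => (σ * τ⁻¹) (u τ c s))).det ≠ 0 := by
  classical
  have huI2 : ∀ τ c (ρ : Equiv.Perm (Fin b)), univ.image (fun s => ρ (u τ c s)) =
      (A τ c).image ρ := by
    intro τ c ρ
    rw [← huI τ c, image_image]
    rfl
  have hP0 : ∀ τ (ρ : Equiv.Perm (Fin b)) c,
      (X : ℂ[X]) ^ (miss cl ((A τ c).image ρ)).card ∣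
        mn r cl y G (len c) (fun s => ρ (u τ c s)) := by
    intro τ ρ c
    have h1 := hO1 b (g * r) r (len c) cl y G (fun s => ρ (u τ c s)) (hR c)
      (ρ.injective.comp (hu τ c))
    rwa [huI2] at h1
  have hid : ∀ τ : Equiv.Perm (Fin b), τ * τ⁻¹ = 1 := fun τ => mul_inv_cancel τ
  refine det_ne (fun τ σ : Equiv.Perm (Fin b) =>
      ∏ c, mn r cl y G (len c) (fun s => (σ * τ⁻¹) (u τ c s)))
    (fun τ => ∑ c, (miss cl (A τ c)).card) ?_ ?_ ?_
  · intro τ
    refine prod_dvd univ _ _ fun c _ => ?_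
    have h1 := hP0 τ 1 c
    rw [Equiv.Perm.coe_one, image_id] at h1
    rw [hid]
    exact h1
  · intro τ
    refine prod_low univ _ _ (fun c _ => ?_) (fun c _ => ?_)
    · have h1 := hP0 τ 1 c
      rw [Equiv.Perm.coe_one, image_id] at h1
      rw [hid]
      exact h1
    · rw [hid]
      exact hG τ c
  · intro τ σ hne
    have hρ : σ * τ⁻¹ ≠ 1 := fun h => hne (mul_inv_eq_one.1 h)
    generalize σ * τ⁻¹ = ρ at hρ
    rcases hA4 τ ρ hρ with h | ⟨h, c0, hc0⟩
    · exact (pow_dvd_pow _ h).trans (prod_dvd univ _ _ fun c _ => hP0 τ ρ c)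
    · have h1 : (X : ℂ[X]) ^ (∑ c, ((miss cl ((A τ c).image ρ)).card +
          if c = c0 then 1 else 0)) ∣ ∏ c, mn r cl y G (len c) (fun s => ρ (u τ c s)) := by
        refine prod_dvd univ _ _ fun c _ => ?_
        split_ifs with hc
        · subst hc
          have h2 := hO2 b r g (len c) cl y G (fun s => ρ (u τ c s)) hr (hR c)
            (ρ.injective.comp (hu τ c)) (by rw [huI2]; exact hc0)
          rwa [huI2] at h2
        · exact hP0 τ ρ c
      rw [sum_add_distrib, sum_ite_eq' univ c0 fun _ => 1, if_pos (mem_univ _)] at h1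
      exact (pow_dvd_pow _ (by omega)).trans h1

/-- **[TS-MAT]** -/
theorem matTStep : MatTStep := by
  classical
  intro hO1 hO2 hO3 n k b N len lam η hb hD hlen hη hcol hsum
  obtain ⟨r, g, cl, y, hr, hR, hst⟩ := hD
  obtain ⟨d, hd, hds⟩ := Mat5.exists_balanced b (∑ i, η i) hb
  -- sizes
  have hlenC : ∀ c, (univ.filter fun i : Fin n => (i : ℕ) < len c).card = len c := by
    intro c
    rw [Fin.card_filter_val_lt, min_eq_right (hlen c)]
  have hsum2 : ∑ c, len c + ∑ i, η i = k * b := by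
    rw [← hsum]
    have h1 : ∑ i, lam i = ∑ i : Fin n, ((univ.filter fun c => (i : ℕ) < len c).card + η i) :=
      sum_congr rfl fun i _ => (hcol i).symm
    rw [h1, sum_add_distrib]
    congr 1
    calc ∑ c, len c = ∑ c, (univ.filter fun i : Fin n => (i : ℕ) < len c).card :=
          sum_congr rfl fun c _ => (hlenC c).symm
      _ = ∑ i : Fin n, (univ.filter fun c => (i : ℕ) < len c).card := by
          simp only [card_filter]
          exact sum_comm
  have hda : ∀ p, d p ≤ k := by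
    intro p
    by_contra h
    push Not at h
    have h1 : ∀ q, k ≤ d q := fun q => by have := hd p q; omega
    have h2 : ∑ q : Fin b, k < ∑ q, d q :=
      sum_lt_sum (fun q _ => h1 q) ⟨p, mem_univ p, h⟩
    rw [sum_const, card_univ, Fintype.card_fin, smul_eq_mul, hds, mul_comm] at h2
    omega
  -- the degree functions
  have hgd1 : ∀ τ : Equiv.Perm (Fin b), ∀ p q, k - d (τ.symm p) ≤ k - d (τ.symm q) + 1 := by
    intro τ p q
    have h1 := hd (τ.symm q) (τ.symm p)
    have h2 := hda (τ.symm p)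
    have h3 := hda (τ.symm q)
    omega
  have hgd2 : ∀ τ : Equiv.Perm (Fin b), ∑ p, (k - d (τ.symm p)) = ∑ c, len c := by
    intro τ
    have h1 : ∑ p, (k - d (τ.symm p)) = ∑ p, (k - d p) :=
      Equiv.sum_comp τ.symm fun p => k - d p
    have h2 : ∑ p, (k - d p) + ∑ p, d p = k * b := by
      rw [← sum_add_distrib]
      have h3 : ∀ p : Fin b, k - d p + d p = k := fun p => Nat.sub_add_cancel (hda p)
      rw [sum_congr rfl fun p _ => h3 p, sum_const, card_univ, Fintype.card_fin, smul_eq_mul,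
        mul_comm]
    rw [h1]
    omega
  have hex := fun τ : Equiv.Perm (Fin b) =>
    hst (fun p => k - d (τ.symm p)) (hgd1 τ) (hgd2 τ)
  choose A hA1 hA2 hA3 hA4 using hex
  let u : Equiv.Perm (Fin b) → (c : Fin N) → Fin (len c) → Fin b := fun τ c =>
    (A τ c).orderEmbOfFin (hA1 τ c)
  have hu : ∀ τ c, Function.Injective (u τ c) := fun τ c =>
    ((A τ c).orderEmbOfFin (hA1 τ c)).injective
  have huA : ∀ τ c s, u τ c s ∈ A τ c := fun τ c s => orderEmbOfFin_mem _ _ s
  have huI : ∀ τ c, univ.image (u τ c) = A τ c := by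
    intro τ c
    apply Finset.coe_injective
    rw [coe_image, coe_univ, Set.image_univ]
    exact range_orderEmbOfFin _ _
  -- the generic entries
  obtain ⟨G, hG⟩ := hO3 b r g cl y (Equiv.Perm (Fin b) × Fin N) (fun x => len x.2)
    (fun x => u x.1 x.2) hr (fun x => hR x.2) (fun x => hu x.1 x.2)
    (fun x => by rw [huI]; exact hA3 x.1 x.2)
  have hdet := key hO1 hO2 cl y G hr hR A u hu huI (fun τ c => by
    have := hG (τ, c)
    simp only [huI] at this
    exact this) hA4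
  -- a numerical point
  obtain ⟨t, ht⟩ := exists_eval hdet
  refine gt_le_of_family η hη d hd hds ?_
  intro C ι _ _ len' hlen' hcol' J hJ hli
  refine orbit_prod len hlen len' hlen' ?_ (fun τ c s => τ.symm (u τ c s)) J ?_
    (fun v i => (pt r cl y G n v i).eval t) ?_ hli
  · intro i
    rw [hcol' i, hcol i]
  · intro τ β j
    have h1 : ∀ c, (univ.filter fun i => τ.symm (u τ c i) = j).card =
        if τ j ∈ A τ c then 1 else 0 := by
      intro c
      have hset : (univ.filter fun i => τ.symm (u τ c i) = j) =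
          univ.filter fun i => u τ c i = τ j := by
        ext i
        simp only [mem_filter, mem_univ, true_and]
        rw [Equiv.symm_apply_eq]
      rw [hset]
      split_ifs with h
      · have hr : τ j ∈ Set.range ((A τ c).orderEmbOfFin (hA1 τ c)) := by
          rw [range_orderEmbOfFin]
          exact h
        obtain ⟨i0, hi0⟩ := hr
        rw [card_eq_one]
        refine ⟨i0, ?_⟩
        ext i
        simp only [mem_filter, mem_univ, true_and, mem_singleton]
        constructor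
        · intro hi
          exact hu τ c (hi.trans hi0.symm)
        · intro hi
          rw [hi]
          exact hi0
      · rw [card_eq_zero, filter_eq_empty_iff]
        intro i _ hi
        exact h (hi ▸ huA τ c i)
    rw [sum_congr rfl fun c _ => h1 c, ← card_filter]
    have h2 := hA2 τ (τ j)
    rw [dgr, Equiv.symm_apply_apply] at h2
    rw [h2, hJ β j]
    exact Nat.sub_add_cancel (hda j)
  · have e : (Matrix.of fun τ σ : Equiv.Perm (Fin b) =>
        ∏ c, dt (hlen c) (fun s => σ (τ.symm (u τ c s)))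
          (fun v i => (pt r cl y G n v i).eval t)) =
        (evalRingHom t).mapMatrix (Matrix.of fun τ σ : Equiv.Perm (Fin b) =>
          ∏ c, mn r cl y G (len c) (fun s => (σ * τ⁻¹) (u τ c s))) := by
      ext τ σ
      rw [Matrix.of_apply, RingHom.mapMatrix_apply, Matrix.map_apply, Matrix.of_apply,
        map_prod]
      exact prod_congr rfl fun c _ => dt_pt r cl y G (hlen c) _ t
    rw [e, ← RingHom.map_det]
    exact ht

end Vale.Agent.P181.TS.H91
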